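import Vale.Agent.P221.H727.Tow

/-!
# P221 (helper727): the stages of `TowData` as generalised Moore spectra

* `exists_towData_glue` : the tower of `exists_towData`, and for every condition `E'` on its
  stages, `STw φ E' j (D.V j)`;
* `piIn_cof` : `π_* (R ⊗ C)` lives in the degrees divisible by `2 p - 2`, `C` the cofibre of
  `p ^ i`.
-/

open CategoryTheory MonoidalCategory OnePoint Limits Pretriangulated MonObj

set_option linter.unusedSectionVars false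

noncomputable section

namespace Vale.Agent.P221.H727

open Vale.Agent.P251 Vale.Agent.P251.S Vale.Agent.P251.T Vale.Agent.P251.M Vale.Agent.P251.F
  Vale.Agent.P251.I EvenSpheres Vale.Agent.P257.H702 Vale.Agent.P257.H80 Vale.Agent.P251.Q
  Vale.Agent.P251.St Vale.Agent.P251.St.SHCat Vale.Agent.P257.St Vale.Agent.P221.H746
  Vale.Agent.P093.N0
open Vale.Agent.P221.St
open Vale.Agent.P221.T (BPS KK HK vK PiM gc gc_map gc_comp unit_hat zr IsLin fm)
open Vale.Agent.P221.H377 Vale.Agent.P221.H45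

variable {T : SHCat} {S : Susp T} {p : ℕ} [hp : Fact p.Prime] {R : RingSp T} {φ : GHom S p R}

/-- **module T, with the link to the stages** -/
theorem exists_towData_glue' {o : Oriented S R} (h : IsBrownPeterson p o φ) {E : ℕ → T.C → Prop}
    {n : ℕ} {V : T.C} (hV : STw φ E (n + 1) V) :
    ∃ D : TowData R.obj p (2 * (p : ℤ) - 2) n, 0 < D.e ∧ D.V (n + 1) = V ∧
      (∀ j, 1 ≤ j → j ≤ n → E j (D.V j)) ∧
      ∀ E' : ℕ → T.C → Prop, E' 0 T.one → (∀ j, 1 ≤ j → j ≤ n → E' j (D.V j)) →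
        ∀ j, 1 ≤ j → j ≤ n + 1 → STw φ E' j (D.V j) := by
  obtain ⟨Vs, rfl, -, ⟨i, g, h0, hi, hT⟩, hE0, hst⟩ := exists_seq hV
  have key : ∀ E' : ℕ → T.C → Prop, E' 0 T.one → (∀ j, 1 ≤ j → j ≤ n → E' j (Vs j)) →
      ∀ j, 1 ≤ j → j ≤ n + 1 → STw φ E' j (Vs j) := by
    intro E' hE0' hE' j
    induction j with
    | zero => exact fun h1 => absurd h1 (by omega)
    | succ j ih =>
      intro h1 h2
      by_cases hj : j = 0
      · subst hj
        exact .base hE0' hi hT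
      · obtain ⟨-, -, k, i', f, g', h', w, hi', hw, hf, hT'⟩ := hst j (by omega) (by omega)
        exact .step (ih (by omega) (by omega)) (hE' j (by omega) (by omega)) hi' hw hf hT'
  obtain ⟨D, hDe, hD1, hD2⟩ := exists_towData' h
    (key (fun j V' => 1 ≤ j → V' = Vs j) (fun h => absurd h (by omega))
      (fun j _ _ _ => rfl) (n + 1) (by omega) le_rfl)
  have hDV : ∀ j, 1 ≤ j → j ≤ n + 1 → D.V j = Vs j := by
    intro j h1 h2
    rcases h2.lt_or_eq with h3 | rfl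
    · exact (hD2 j h1 (by omega)).2 h1
    · exact hD1
  refine ⟨D, hDe, hD1, fun j h1 h2 => ?_, fun E' h0' h1' j h1 h2 => ?_⟩
  · rw [hDV j h1 (by omega)]
    exact (hst j h1 (by omega)).2.1
  · rw [hDV j h1 h2]
    exact key E' h0' (fun l hl hl' => by rw [← hDV l hl (by omega)]; exact h1' l hl hl') j h1 h2

/-- **module T, with the link to the stages** -/
theorem exists_towData_glue {o : Oriented S R} (h : IsBrownPeterson p o φ) {E : ℕ → T.C → Prop}
    {n : ℕ} {V : T.C} (hV : STw φ E (n + 1) V) :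
    ∃ D : TowData R.obj p (2 * (p : ℤ) - 2) n, D.V (n + 1) = V ∧
      (∀ j, 1 ≤ j → j ≤ n → E j (D.V j)) ∧
      ∀ E' : ℕ → T.C → Prop, E' 0 T.one → (∀ j, 1 ≤ j → j ≤ n → E' j (D.V j)) →
        ∀ j, 1 ≤ j → j ≤ n + 1 → STw φ E' j (D.V j) := by
  obtain ⟨D, -, hD⟩ := exists_towData_glue' h hV
  exact ⟨D, hD⟩

/-- `π_* (R ⊗ C)`, `C` the cofibre of `p ^ i` -/
theorem piIn_cof {o : Oriented S R} (h : IsBrownPeterson p o φ) {i : ℕ} (hi : 0 < i) {C : T.C}
    {g : 𝟙_ T.C ⟶ C} {δ : C ⟶ (𝟙_ T.C)⟦(1 : ℤ)⟧}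
    (hT : Triangle.mk (((p : ℤ) ^ i) • 𝟙 (𝟙_ T.C)) g δ ∈ distTriang T.C) :
    PiIn (fun k => (2 * (p : ℤ) - 2) ∣ k) (R.obj ⊗ C) := by
  obtain ⟨Pc, W₀, b, hcls⟩ := exists_mulCls h
  have h1 : STw φ (fun _ _ => True) 1 C := .base (g := g) (h := δ) trivial hi hT
  obtain ⟨-, -, ⟨a, ha⟩, io, e, hS⟩ := all_of_stw hcls h1
  exact piIn_of_stP b hS ha

/-- `π_* (R ⊗ C)`, `C` the cofibre of `p` -/
theorem piIn_cof_one {o : Oriented S R} (h : IsBrownPeterson p o φ) {C : T.C}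
    {g : 𝟙_ T.C ⟶ C} {δ : C ⟶ (𝟙_ T.C)⟦(1 : ℤ)⟧}
    (hT : Triangle.mk ((p : ℤ) • 𝟙 (𝟙_ T.C)) g δ ∈ distTriang T.C) :
    PiIn (fun k => (2 * (p : ℤ) - 2) ∣ k) (R.obj ⊗ C) := by
  refine piIn_cof h (i := 1) one_pos (g := g) (δ := δ) ?_
  rwa [pow_one]

end Vale.Agent.P221.H727
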