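import Vale.Agent.P221.T.Coor
import Mathlib.Algebra.MvPolynomial.Division

/-!
# P221 (helper727): the ideals `(p^{e_0}, v_1^{e_1}, …, v_{j-1}^{e_{j-1}})`

`InJ e j f` : `f ∈ ℤ_p[v_1, v_2, …]` lies in `(p^{e_0}, v_1^{e_1}, …, v_{j-1}^{e_{j-1}})`,
expressed by the coefficients.
-/

open MvPolynomial Vale.Agent.P221.T

set_option linter.unusedSectionVars false

noncomputable section

namespace Vale.Agent.P221.H727

variable {p : ℕ} [hp : Fact p.Prime]

/-- `f` lies in the ideal `(p^{e_0}, v_1^{e_1}, …, v_{j-1}^{e_{j-1}})`, `1 ≤ j` -/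
def InJ (e : ℕ → ℕ) (j : ℕ) (f : KK p) : Prop :=
  ∀ E : ℕ →₀ ℕ, (∀ l, l + 1 < j → E l < e (l + 1)) → (p : ℤ_[p]) ^ e 0 ∣ coeff E f

theorem InJ.zero (e : ℕ → ℕ) (j : ℕ) : InJ e j (0 : KK p) := fun E _ => by
  rw [coeff_zero]
  exact dvd_zero _

theorem InJ.add {e : ℕ → ℕ} {j : ℕ} {f g : KK p} (hf : InJ e j f) (hg : InJ e j g) :
    InJ e j (f + g) := fun E hE => by
  rw [coeff_add]
  exact dvd_add (hf E hE) (hg E hE)

theorem InJ.sub {e : ℕ → ℕ} {j : ℕ} {f g : KK p} (hf : InJ e j f) (hg : InJ e j g) :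
    InJ e j (f - g) := fun E hE => by
  rw [coeff_sub]
  exact dvd_sub (hf E hE) (hg E hE)

theorem InJ.congr {e e' : ℕ → ℕ} {j : ℕ} (hj : 1 ≤ j) {f : KK p} (hf : InJ e j f)
    (h : ∀ l < j, e l = e' l) : InJ e' j f := fun E hE => by
  rw [← h 0 (by omega)]
  refine hf E fun l hl => ?_
  rw [h (l + 1) hl]
  exact hE l hl

/-- `j = 1` -/
theorem inJ_one {e : ℕ → ℕ} {f : KK p} : InJ e 1 f ↔ ∃ g : KK p, f = (p : KK p) ^ e 0 * g := by
  have hC : (p : KK p) ^ e 0 = C ((p : ℤ_[p]) ^ e 0) := by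
    rw [map_pow, map_natCast]
  constructor
  · intro h
    have h1 : C ((p : ℤ_[p]) ^ e 0) ∣ f := by
      rw [C_dvd_iff_dvd_coeff]
      exact fun E => h E fun l hl => absurd hl (by omega)
    obtain ⟨g, hg⟩ := h1
    exact ⟨g, by rw [hC, hg]⟩
  · rintro ⟨g, rfl⟩ E _
    rw [hC, coeff_C_mul]
    exact dvd_mul_right _ _

theorem inJ_one_homog {e : ℕ → ℕ} {k : ℤ} {f : KK p} (hf : HK p k f) :
    InJ e 1 f ↔ ∃ g : KK p, HK p k g ∧ f = (p : KK p) ^ e 0 * g := by
  rw [inJ_one]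
  constructor
  · rintro ⟨g, rfl⟩
    refine ⟨g, fun E hE => hf ?_, rfl⟩
    have hC : (p : KK p) ^ e 0 = C ((p : ℤ_[p]) ^ e 0) := by
      rw [map_pow, map_natCast]
    rw [hC, coeff_C_mul]
    exact mul_ne_zero (pow_ne_zero _ (by exact_mod_cast hp.out.ne_zero)) hE
  · rintro ⟨g, -, h⟩
    exact ⟨g, h⟩

/-- the element `v_j ^ i` is regular modulo `(p^{e_0}, …, v_{j-1}^{e_{j-1}})` -/
theorem InJ.of_mul {e : ℕ → ℕ} {j i : ℕ} (hj : 1 ≤ j) {f : KK p}
    (h : InJ e j (vK p j ^ i * f)) : InJ e j f := by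
  obtain ⟨j, rfl⟩ : ∃ j', j = j' + 1 := ⟨j - 1, by omega⟩
  intro E hE
  have h1 := h (Finsupp.single j i + E) fun l hl => by
    rw [Finsupp.add_apply, Finsupp.single_apply, if_neg (by omega), zero_add]
    exact hE l hl
  have h2 : (vK p (j + 1) ^ i : KK p) = monomial (Finsupp.single j i) 1 := by
    change (X j : KK p) ^ i = _
    rw [X_pow_eq_monomial]
  rwa [h2, coeff_monomial_mul, one_mul] at h1

/-- the ideals for `j` and `j + 1` -/
theorem InJ.succ_of {e : ℕ → ℕ} {j : ℕ} (hj : 1 ≤ j) {g h : KK p} (hg : InJ e j g) :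
    InJ e (j + 1) (g + vK p j ^ e j * h) := by
  obtain ⟨j, rfl⟩ : ∃ j', j = j' + 1 := ⟨j - 1, by omega⟩
  intro E hE
  have h2 : (vK p (j + 1) ^ e (j + 1) : KK p) = monomial (Finsupp.single j (e (j + 1))) 1 := by
    change (X j : KK p) ^ _ = _
    rw [X_pow_eq_monomial]
  rw [coeff_add, h2, coeff_monomial_mul', if_neg, add_zero]
  · exact hg E fun l hl => hE l (by omega)
  · intro hle
    have h3 := hle j
    rw [Finsupp.single_eq_same] at h3
    exact absurd (hE j (by omega)) (by omega)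

theorem InJ.exists_succ {e : ℕ → ℕ} {j : ℕ} (hj : 1 ≤ j) {k : ℤ} {f : KK p} (hf : HK p k f)
    (h : InJ e (j + 1) f) : ∃ g h : KK p, HK p k g ∧ HK p (k - e j * sV p j) h ∧ InJ e j g ∧
      f = g + vK p j ^ e j * h := by
  obtain ⟨j, rfl⟩ : ∃ j', j = j' + 1 := ⟨j - 1, by omega⟩
  have h2 : (vK p (j + 1) ^ e (j + 1) : KK p) = monomial (Finsupp.single j (e (j + 1))) 1 := by
    change (X j : KK p) ^ _ = _
    rw [X_pow_eq_monomial]
  set s : ℕ →₀ ℕ := Finsupp.single j (e (j + 1)) with hs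
  refine ⟨f.modMonomial s, f.divMonomial s, ?_, ?_, ?_, ?_⟩
  · intro E hE
    by_cases hle : s ≤ E
    · exact absurd (coeff_modMonomial_of_le f hle) hE
    · rw [coeff_modMonomial_of_not_le f hle] at hE
      exact hf hE
  · intro E hE
    rw [coeff_divMonomial] at hE
    have h3 := hf hE
    rw [map_add] at h3
    have h4 : Finsupp.weight (fun i => sV p (i + 1)) s = e (j + 1) * sV p (j + 1) := by
      rw [hs, Finsupp.weight_single, nsmul_eq_mul]
    omega
  · intro E hE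
    by_cases hle : s ≤ E
    · rw [coeff_modMonomial_of_le f hle]
      exact dvd_zero _
    · rw [coeff_modMonomial_of_not_le f hle]
      refine h E fun l hl => ?_
      rcases Nat.lt_or_ge (l + 1) (j + 1) with h5 | h5
      · exact hE l h5
      · obtain rfl : l = j := by omega
        by_contra h6
        refine hle fun l' => ?_
        rw [hs, Finsupp.single_apply]
        split_ifs with h7
        · subst h7
          omega
        · exact Nat.zero_le _
  · rw [h2, add_comm]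
    exact (divMonomial_add_modMonomial f s).symm

end Vale.Agent.P221.H727
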