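import Vale.Agent.P221.H45.Defs
import Vale.Agent.P221.H377.TwrG
import Vale.Agent.P221.T.H924.StdShift

/-!
# P221 (helper727): self maps of generalised Moore spectra and the action of `w`

* `actM_self` : the action of `w` on `R` is the right multiplication;
* `onR_eq` : `w ⊗ V` through `V ⊗ S^{2k}`;
* `induces_of` : `InducesMul` implies `Induces`.
-/

open CategoryTheory MonoidalCategory MonObj Limits Pretriangulated
open Vale.Agent.P251.T Vale.Agent.P251.M Vale.Agent.P251.S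

set_option linter.unusedSectionVars false

universe u

noncomputable section

namespace Vale.Agent.P221.H727

open Vale.Agent.P221.T Vale.Agent.P221.H377 Vale.Agent.P221.H45 Vale.Agent.P221.T.H924

section gen

variable {𝒯 : Type u} [Category.{0} 𝒯] [Preadditive 𝒯] [HasZeroObject 𝒯]
    [HasShift 𝒯 ℤ] [∀ n : ℤ, (shiftFunctor 𝒯 n).Additive] [Pretriangulated 𝒯] [IsTriangulated 𝒯]
    [MonoidalCategory 𝒯] [SymmetricCategory 𝒯] [TensorTriangulated 𝒯] [MonoidalClosed 𝒯]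
    [HasCoproducts.{0} 𝒯] [HasProducts.{0} 𝒯] [StableCat 𝒯]

theorem rsh_inv_eq (a : ℤ) (X Y : 𝒯) : (rsh a X Y).inv =
    ((β_ X Y).hom)⟦a⟧' ≫ (csh Y a X).inv ≫ (β_ Y (X⟦a⟧)).hom := by
  rw [← cancel_epi (rsh a X Y).hom, Iso.hom_inv_id, rsh_eq]
  simp only [Category.assoc]
  rw [← Functor.map_comp_assoc, SymmetricCategory.symmetry, CategoryTheory.Functor.map_id,
    Category.id_comp, Iso.hom_inv_id_assoc, SymmetricCategory.symmetry]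

/-- the action of `w` on `R` is the right multiplication -/
theorem actM_self {R : 𝒯} [MonObj R] [IsCommMonObj R] {d : ℤ} (w : (𝟙_ 𝒯)⟦d⟧ ⟶ R) :
    actM (ModStr.self R) w = rmul w := by
  have h1 : fm (tensorRight R) w = ((β_ (𝟙_ 𝒯) R).hom)⟦d⟧' ≫ fm (tensorLeft R) w ≫
      (β_ R R).hom := by
    rw [fm_tensorRight, fm_tensorLeft, rsh_inv_eq]
    simp only [Category.assoc]
    rw [← BraidedCategory.braiding_naturality_right]
  change ((λ_ R).inv)⟦d⟧' ≫ fm (tensorRight R) w ≫ μ[R] = ((ρ_ R).inv)⟦d⟧' ≫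
    fm (tensorLeft R) w ≫ μ[R]
  rw [h1]
  simp only [Category.assoc]
  rw [IsCommMonObj.mul_comm, ← Functor.map_comp_assoc]
  congr 2
  simp

/-- `(R⟦2k⟧) ⊗ V` through `R ⊗ S^{2k} ⊗ V` -/
theorem sh_rsh (k : ℕ) (R V : 𝒯) : ((sh k R).hom ▷ V) ≫ (rsh (2 * (k : ℤ)) R V).hom =
    (α_ R (Pw (stdEven 𝒯).L k) V).hom ≫ R ◁ (β_ (Pw (stdEven 𝒯).L k) V).hom ≫
      (α_ R V (Pw (stdEven 𝒯).L k)).inv ≫ (sh k (R ⊗ V)).hom := by
  rw [rsh_eq, BraidedCategory.braiding_naturality_left_assoc]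
  have h1 : V ◁ (sh k R).hom ≫ (csh V (2 * (k : ℤ)) R).hom =
      (α_ V R (Pw (stdEven 𝒯).L k)).inv ≫ (sh k (V ⊗ R)).hom := by
    rw [Iso.eq_inv_comp, sh_csh]
  rw [reassoc_of% h1, ← sh_nat, BraidedCategory.braiding_tensor_left_hom]
  simp only [Category.assoc, Iso.hom_inv_id_assoc]
  rw [← comp_whiskerRight_assoc, SymmetricCategory.symmetry, id_whiskerRight, Category.id_comp]

/-- right multiplication through the even sphere -/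
theorem sh_rmul (k : ℕ) {R : 𝒯} [MonObj R] (w : (𝟙_ 𝒯)⟦2 * (k : ℤ)⟧ ⟶ R)
    (z : Pw (stdEven 𝒯).L k ⟶ R)
    (hz : z = (λ_ (Pw (stdEven 𝒯).L k)).inv ≫ (sh k (𝟙_ 𝒯)).hom ≫ w) :
    (sh k R).hom ≫ rmul w = R ◁ z ≫ μ[R] := by
  have h3 : (sh k (R ⊗ 𝟙_ 𝒯)).hom ≫ (csh R (2 * (k : ℤ)) (𝟙_ 𝒯)).inv =
      (α_ R (𝟙_ 𝒯) (Pw (stdEven 𝒯).L k)).hom ≫ (R ◁ (sh k (𝟙_ 𝒯)).hom) := by
    rw [Iso.comp_inv_eq, Category.assoc, sh_csh]
  have h6 : (ρ_ R).inv ▷ Pw (stdEven 𝒯).L k ≫ (α_ R (𝟙_ 𝒯) (Pw (stdEven 𝒯).L k)).hom =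
      R ◁ (λ_ (Pw (stdEven 𝒯).L k)).inv := by simp
  rw [hz, rmul, ← sh_nat_assoc, fm_tensorLeft]
  simp only [Category.assoc]
  rw [reassoc_of% h3, reassoc_of% h6]
  simp only [MonoidalCategory.whiskerLeft_comp, Category.assoc]

end gen

section st

open Vale.Agent.P251.St Vale.Agent.P251.St.SHCat Vale.Agent.P257.St Vale.Agent.P257.H702
  Vale.Agent.P221.St
open Vale.Agent.P251.M.EvenSpheres
open Vale.Agent.P221.H395.Fp

variable {T : SHCat} {S : Susp T} {R : RingSp T}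

theorem rsh_inv_sh (k : ℕ) (R V : T.C) : (rsh (2 * (k : ℤ)) R V).inv =
    (sh k (R ⊗ V)).inv ≫ (α_ R V (Pw (stdEven T.C).L k)).hom ≫
      R ◁ (β_ V (Pw (stdEven T.C).L k)).hom ≫ (α_ R (Pw (stdEven T.C).L k) V).inv ≫
        (sh k R).hom ▷ V := by
  rw [← cancel_mono (rsh (2 * (k : ℤ)) R V).hom, Iso.inv_hom_id]
  simp only [Category.assoc]
  rw [sh_rsh, Iso.inv_hom_id_assoc, ← MonoidalCategory.whiskerLeft_comp_assoc,
    SymmetricCategory.symmetry, MonoidalCategory.whiskerLeft_id, Category.id_comp,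
    Iso.hom_inv_id_assoc, Iso.inv_hom_id]

/-- `w ⊗ V` through the even sphere -/
theorem onR_wcl {k : ℕ} (V : T.C) (w : Hom (S.obj (Cn k)) R.obj) :
    onR (actM (ModStr.self R.obj) (wcl w)) V =
      (sh k (R.obj ⊗ V)).inv ≫ (α_ R.obj V (Pw (stdEven T.C).L k)).hom ≫
        R.obj ◁ (β_ V (Pw (stdEven T.C).L k)).hom ≫
          (α_ R.obj (Pw (stdEven T.C).L k) V).inv ≫
            (R.obj ◁ ((isoE S k).inv ≫ w) ≫ μ[R.obj]) ▷ V := by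
  have h1 : (stdSph (T := T.C) (k : ℤ)).hom ≫ wcl w = (isoE S k).inv ≫ w := by
    rw [wcl, Iso.hom_inv_id_assoc]
  have h2 := sh_rmul (R := R.obj) k (wcl w) ((isoE S k).inv ≫ w)
    (h1.symm.trans (Category.assoc _ _ _))
  change fm (tensorRight V) (actM (ModStr.self R.obj) (wcl w)) = _
  rw [actM_self, fm_tensorRight, rsh_inv_sh]
  simp only [Category.assoc]
  rw [← comp_whiskerRight, h2]
  rfl

theorem onL_fV {k : ℕ} {V : T.C} (X : T.C) (f : Hom (ten (S.obj (Cn k)) V) V) :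
    onL X (fV f) = (sh k (X ⊗ V)).inv ≫ (α_ X V (Pw (stdEven T.C).L k)).hom ≫
      X ◁ selfMap f := by
  rw [Iso.eq_inv_comp, ← sh_csh]
  have h1 : onL X (fV f) = (csh X (2 * (k : ℤ)) V).inv ≫ X ◁ ((sh k V).inv ≫ selfMap f) := rfl
  rw [h1]
  have h2 : (sh k V).hom ≫ (sh k V).inv ≫ (selfMap f : V ⊗ Pw (stdEven T.C).L k ⟶ V) =
      selfMap f := Iso.hom_inv_id_assoc _ _
  simp only [Category.assoc]
  rw [Iso.hom_inv_id_assoc, ← MonoidalCategory.whiskerLeft_comp]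
  exact congrArg (fun x => (α_ X V (Pw (stdEven T.C).L k)).hom ≫ X ◁ x) h2

/-- **`InducesMul` implies `Induces`** -/
theorem induces_of {k : ℕ} {V : T.C} {w : Hom (S.obj (Cn k)) R.obj}
    {f : Hom (ten (S.obj (Cn k)) V) V} (h : InducesMul w f) : Induces (wcl w) (fV f) := by
  intro k₁ k' hk y
  obtain ⟨y₀, hy₀⟩ : ∃ y₀ : (𝟙_ T.C)⟦k'⟧ ⟶ R.obj ⊗ (V ⊗ (stdEven T.C).S k), y₀ =
      (shiftFunctorAdd' T.C k₁ (2 * (k : ℤ)) k' (by omega)).hom.app (𝟙_ T.C) ≫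
        y⟦2 * (k : ℤ)⟧' ≫ (sh k (R.obj ⊗ V)).inv ≫ (α_ R.obj V (Pw (stdEven T.C).L k)).hom :=
    ⟨_, rfl⟩
  have h1 := h k' (y₀ ≫ R.obj ◁ (V ◁ (isoE S k).inv ≫ (β_ V (S.obj (Cn k))).hom))
  change (y₀ ≫ R.obj ◁ (V ◁ (isoE S k).inv ≫ (β_ V (S.obj (Cn k))).hom)) ≫ R.obj ◁ f =
    (y₀ ≫ R.obj ◁ (V ◁ (isoE S k).inv ≫ (β_ V (S.obj (Cn k))).hom)) ≫
      (α_ R.obj (S.obj (Cn k)) V).inv ≫ ((𝟙 R.obj ⊗ₘ w) ≫ μ[R.obj]) ▷ V at h1
  have h2 : R.obj ◁ (V ◁ (isoE S k).inv ≫ (β_ V (S.obj (Cn k))).hom) ≫ R.obj ◁ f =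
      R.obj ◁ selfMap f := by
    rw [← MonoidalCategory.whiskerLeft_comp, Category.assoc]
    rfl
  have h3 : R.obj ◁ (V ◁ (isoE S k).inv ≫ (β_ V (S.obj (Cn k))).hom) ≫
      (α_ R.obj (S.obj (Cn k)) V).inv ≫ ((𝟙 R.obj ⊗ₘ w) ≫ μ[R.obj]) ▷ V =
      R.obj ◁ (β_ V (Pw (stdEven T.C).L k)).hom ≫
          (α_ R.obj (Pw (stdEven T.C).L k) V).inv ≫
            (R.obj ◁ ((isoE S k).inv ≫ w) ≫ μ[R.obj]) ▷ V := by
    rw [BraidedCategory.braiding_naturality_right, MonoidalCategory.whiskerLeft_comp,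
      Category.assoc, associator_inv_naturality_middle_assoc, id_tensorHom]
    simp only [MonoidalCategory.whiskerLeft_comp, comp_whiskerRight, Category.assoc]
    rfl
  rw [Category.assoc, Category.assoc, h2, h3] at h1
  change (shiftFunctorAdd' T.C k₁ (2 * (k : ℤ)) k' (by omega)).hom.app (𝟙_ T.C) ≫
      y⟦2 * (k : ℤ)⟧' ≫ onL R.obj (fV f) =
    (shiftFunctorAdd' T.C k₁ (2 * (k : ℤ)) k' (by omega)).hom.app (𝟙_ T.C) ≫
      y⟦2 * (k : ℤ)⟧' ≫ onR (actM (ModStr.self R.obj) (wcl w)) V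
  rw [onL_fV, onR_wcl]
  rw [hy₀] at h1
  have has : ∀ {A B C D E F : T.C} (a : A ⟶ B) (b : B ⟶ C) (c : C ⟶ D) (d : D ⟶ E)
      (e : E ⟶ F), (a ≫ b ≫ c ≫ d) ≫ e = a ≫ b ≫ c ≫ d ≫ e := by
    intros
    simp only [Category.assoc]
  exact (has _ _ _ _ _).symm.trans (h1.trans (has _ _ _ _ _))

end st

end Vale.Agent.P221.H727
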