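import Vale.Agent.P221.H727.Alg
import Vale.Agent.P221.H377.Lin
import Vale.Agent.P221.H377.Les

/-!
# P221 (helper727): the homotopy of `P ⊗ V` for the stages `V` of a generalised Moore spectrum

* `Rep b k z f` : `z ∈ π_k P` is the class of `f ∈ ℤ_p[v_1, v_2, …]`;
* `StP b e j io` : `π_* P ⟶ π_* (P ⊗ V)` is onto with kernel `(p^{e_0}, …, v_{j-1}^{e_{j-1}})`;
* `StP.base`, `StP.step`.
-/

open CategoryTheory MonoidalCategory MonObj Limits Pretriangulated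
open Vale.Agent.P251.T Vale.Agent.P251.M Vale.Agent.P251.S

set_option linter.unusedSectionVars false

universe u

noncomputable section

namespace Vale.Agent.P221.H727

open Vale.Agent.P221.T Vale.Agent.P221.H377

variable {𝒯 : Type u} [Category.{0} 𝒯] [Preadditive 𝒯] [HasZeroObject 𝒯]
    [HasShift 𝒯 ℤ] [∀ n : ℤ, (shiftFunctor 𝒯 n).Additive] [Pretriangulated 𝒯] [IsTriangulated 𝒯]
    [MonoidalCategory 𝒯] [SymmetricCategory 𝒯] [TensorTriangulated 𝒯] [MonoidalClosed 𝒯]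
    [HasCoproducts.{0} 𝒯] [HasProducts.{0} 𝒯] [StableCat 𝒯]

variable {p : ℕ} [hp : Fact p.Prime] {R P W : 𝒯} [MonObj R] [IsCommMonObj R] (b : BPS p R P W)

/-- the unit of `π_* P` -/
def un : PiM P := PiM.of P 0 (zr 𝒯 ≫ η[R] ≫ b.c)

/-- `z` is the class of `f` -/
def Rep (k : ℤ) (z : (𝟙_ 𝒯)⟦k⟧ ⟶ P) (f : KK p) : Prop :=
  HK p k f ∧ PiM.of P k z = b.kk b.MP b.cP f (un b)

variable {b}

theorem exists_rep {k : ℤ} (z : (𝟙_ 𝒯)⟦k⟧ ⟶ P) : ∃ f, Rep b k z f :=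
  (b.free k z).exists

theorem Rep.unique {k : ℤ} {z : (𝟙_ 𝒯)⟦k⟧ ⟶ P} {f g : KK p} (hf : Rep b k z f)
    (hg : Rep b k z g) : f = g := (b.free k z).unique hf hg

theorem Rep.inj {k : ℤ} {z z' : (𝟙_ 𝒯)⟦k⟧ ⟶ P} {f : KK p} (h : Rep b k z f)
    (h' : Rep b k z' f) : z = z' :=
  Vale.Agent.P221.T.H598.of_inj (h.2.trans h'.2.symm)

theorem exists_cls {k : ℤ} {f : KK p} (hf : HK p k f) : ∃ z : (𝟙_ 𝒯)⟦k⟧ ⟶ P, Rep b k z f :=
  ⟨b.cls k f, hf, Vale.Agent.P221.T.H598.of_cls b hf⟩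

theorem Rep.add {k : ℤ} {z z' : (𝟙_ 𝒯)⟦k⟧ ⟶ P} {f f' : KK p} (h : Rep b k z f)
    (h' : Rep b k z' f') : Rep b k (z + z') (f + f') := by
  refine ⟨h.1.add h'.1, ?_⟩
  rw [map_add, map_add, h.2, h'.2]
  rfl

theorem Rep.zero (k : ℤ) : Rep b k (0 : (𝟙_ 𝒯)⟦k⟧ ⟶ P) 0 := by
  refine ⟨MvPolynomial.isWeightedHomogeneous_zero _ _ _, ?_⟩
  rw [map_zero, map_zero]
  rfl

theorem Rep.eq_zero {k : ℤ} {z : (𝟙_ 𝒯)⟦k⟧ ⟶ P} (h : Rep b k z 0) : z = 0 :=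
  h.inj (Rep.zero k)

/-- multiplication by `p ^ i` -/
theorem Rep.psmul {k : ℤ} {z : (𝟙_ 𝒯)⟦k⟧ ⟶ P} {f : KK p} (h : Rep b k z f) (i : ℕ) :
    Rep b k (((p : ℤ) ^ i) • z) ((p : KK p) ^ i * f) := by
  refine ⟨?_, ?_⟩
  · have hC : (p : KK p) ^ i = MvPolynomial.C ((p : ℤ_[p]) ^ i) := by
      rw [map_pow, map_natCast]
    intro E hE
    rw [hC, MvPolynomial.coeff_C_mul] at hE
    exact h.1 (right_ne_zero_of_mul hE)
  · rw [map_zsmul, map_mul, map_pow, map_natCast, h.2]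
    have h1 : ∀ (m : ℕ) (g : AddMonoid.End (PiM P)) (x : PiM P),
        (((m : ℕ) : AddMonoid.End (PiM P)) ^ i * g) x = ((m : ℤ) ^ i) • g x := by
      intro m g x
      rw [← Nat.cast_pow, ← Nat.cast_pow, natCast_zsmul]
      exact AddMonoid.End.natCast_apply _ _
    exact (h1 p _ _).symm

/-- multiplication by `v` -/
theorem Rep.mul {d k k' : ℤ} (h : d + k = k') {z : (𝟙_ 𝒯)⟦k⟧ ⟶ P} {f : KK p}
    (hz : Rep b k z f) {v : KK p} (hv : HK p d v) :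
    Rep b k' (gc h z (b.mult d v)) (v * f) := by
  subst h
  refine ⟨hv.mul hz.1, ?_⟩
  have hlin : IsLin b.MP b.MP (b.mult d v) := by
    refine b.isLin_of_c b.cP ?_
    rw [Vale.Agent.P221.T.H598.c_mult]
    exact Vale.Agent.P221.T.hat_isLin _ _
  have h1 : PiM.map (b.mult d v) (un b) = b.kk b.MP b.cP v (un b) := by
    rw [un, PiM.map_of _ (add_zero d), gc_unit_shift, Functor.map_comp, Category.assoc,
      Vale.Agent.P221.T.H598.c_mult, unit_hat, Vale.Agent.P221.T.H598.of_cls b hv]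
  have h2 := b.kk_lin b.MP b.cP b.MP b.cP (b.mult d v) hlin f (un b)
  rw [← hz.2, PiM.map_of _ (rfl : d + k = d + k), h1] at h2
  rw [h2, mul_comm v f, map_mul]
  rfl

variable (b)

/-- `π_* P ⟶ π_* (P ⊗ V)` is onto with kernel `(p^{e_0}, …, v_{j-1}^{e_{j-1}})` -/
structure StP (e : ℕ → ℕ) (j : ℕ) {V : 𝒯} (io : 𝟙_ 𝒯 ⟶ V) : Prop where
  sur : ∀ {k : ℤ} (y : (𝟙_ 𝒯)⟦k⟧ ⟶ P ⊗ V), ∃ z : (𝟙_ 𝒯)⟦k⟧ ⟶ P, z ≫ inc io P = y
  ker : ∀ {k : ℤ} (z : (𝟙_ 𝒯)⟦k⟧ ⟶ P) (f : KK p), Rep b k z f →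
    (z ≫ inc io P = 0 ↔ InJ e j f)

variable {b}

/-- the base -/
theorem StP.base {e : ℕ → ℕ} {V : 𝒯} {io : 𝟙_ 𝒯 ⟶ V} {F : P⟦(0 : ℤ)⟧ ⟶ P}
    {δ : P ⊗ V ⟶ (P⟦(0 : ℤ)⟧)⟦(1 : ℤ)⟧} (H : Triangle.mk F (inc io P) δ ∈ distTriang 𝒯)
    (hF : ∀ {k : ℤ} (h : (0 : ℤ) + k = k) (z : (𝟙_ 𝒯)⟦k⟧ ⟶ P), gc h z F = ((p : ℤ) ^ e 0) • z) :
    StP b e 1 io := by
  have hne : (p : KK p) ^ e 0 ≠ 0 := pow_ne_zero _ (by exact_mod_cast hp.out.ne_zero)
  constructor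
  · intro k y
    obtain ⟨w, hw, hw'⟩ := exists_conn H (zero_add (k - 1)) (show 1 + (k - 1) = k by ring) y
    refine hw' ?_
    rw [hF] at hw
    obtain ⟨f, hf⟩ := exists_rep (b := b) w
    have h1 := hf.psmul (e 0)
    rw [hw] at h1
    have h2 := h1.unique (Rep.zero _)
    have h3 : f = 0 := (mul_eq_zero.1 h2).resolve_left hne
    subst h3
    exact hf.eq_zero
  · intro k z f hz
    rw [inJ_one_homog hz.1]
    constructor
    · intro h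
      obtain ⟨z', hz'⟩ := exists_gc H (zero_add k) z h
      rw [hF] at hz'
      obtain ⟨g, hg⟩ := exists_rep (b := b) z'
      have h1 := hg.psmul (e 0)
      rw [hz'] at h1
      exact ⟨g, hg.1, hz.unique h1⟩
    · rintro ⟨g, hg, rfl⟩
      obtain ⟨z', hz'⟩ := exists_cls (b := b) hg
      have h1 : z = ((p : ℤ) ^ e 0) • z' := hz.inj (hz'.psmul _)
      rw [h1, ← hF (zero_add k) z', gc_F_G H]

/-- the step -/
theorem StP.step {e : ℕ → ℕ} {j : ℕ} (hj : 1 ≤ j) {V V' : 𝒯} {io : 𝟙_ 𝒯 ⟶ V}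
    (hS : StP b e j io) {d : ℤ} (hd : d = e j * sV p j) {g : V ⟶ V'} {F : (P ⊗ V)⟦d⟧ ⟶ P ⊗ V}
    {δ : P ⊗ V' ⟶ ((P ⊗ V)⟦d⟧)⟦(1 : ℤ)⟧} (H : Triangle.mk F (P ◁ g) δ ∈ distTriang 𝒯)
    (hF : (inc io P)⟦d⟧' ≫ F = b.mult d (vK p j ^ e j) ≫ inc io P) :
    StP b e (j + 1) (io ≫ g) := by
  have hv : HK p d (vK p j ^ e j) := by
    have h2 := (show MvPolynomial.IsWeightedHomogeneous (fun i => sV p (i + 1))
      (vK p j) (sV p j) from Vale.Agent.P221.T.H609.HK_vK j).pow (e j)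
    rw [nsmul_eq_mul, ← hd] at h2
    exact h2
  have hinc : inc (io ≫ g) P = inc io P ≫ P ◁ g := by
    unfold Vale.Agent.P221.H377.inc
    rw [Category.assoc, MonoidalCategory.whiskerLeft_comp]
  have key : ∀ {k k' : ℤ} (h : d + k = k') (z : (𝟙_ 𝒯)⟦k⟧ ⟶ P),
      gc h (z ≫ inc io P) F = gc h z (b.mult d (vK p j ^ e j)) ≫ inc io P := by
    intro k k' h z
    rw [gc_map, hF, gc_comp]
  have hFinj : ∀ {k k' : ℤ} (h : d + k = k') (y : (𝟙_ 𝒯)⟦k⟧ ⟶ P ⊗ V), gc h y F = 0 →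
      y = 0 := by
    intro k k' h y hy
    obtain ⟨z, rfl⟩ := hS.sur y
    obtain ⟨f, hf⟩ := exists_rep (b := b) z
    rw [key, hS.ker _ _ (hf.mul h hv)] at hy
    exact (hS.ker _ _ hf).2 (hy.of_mul hj)
  constructor
  · intro k y
    obtain ⟨w, hw, hw'⟩ := exists_conn H (show d + (k - 1 - d) = k - 1 by ring)
      (show 1 + (k - 1) = k by ring) y
    obtain ⟨y', hy'⟩ := hw' (hFinj _ _ hw)
    obtain ⟨z, rfl⟩ := hS.sur y'
    exact ⟨z, by rw [hinc, ← Category.assoc, hy']⟩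
  · intro k z f hz
    rw [hinc, ← Category.assoc]
    constructor
    · intro h
      obtain ⟨y, hy⟩ := exists_gc H (show d + (k - d) = k by ring) _ h
      obtain ⟨z', rfl⟩ := hS.sur y
      obtain ⟨g', hg'⟩ := exists_rep (b := b) z'
      rw [key] at hy
      have h2 := hg'.mul (show d + (k - d) = k by ring) hv
      obtain ⟨f', hf'⟩ := exists_rep (b := b)
        (z - gc (show d + (k - d) = k by ring) z' (b.mult d (vK p j ^ e j)))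
      have h3 := hf'.add h2
      rw [sub_add_cancel] at h3
      have h4 : f = f' + vK p j ^ e j * g' := hz.unique h3
      rw [h4]
      refine InJ.succ_of hj ((hS.ker _ _ hf').1 ?_)
      rw [Preadditive.sub_comp, hy, sub_self]
    · intro h
      obtain ⟨g₁, h₁, hg₁, hh₁, hin, rfl⟩ := h.exists_succ hj hz.1
      rw [← hd] at hh₁
      obtain ⟨z₁, hz₁⟩ := exists_cls (b := b) hg₁
      obtain ⟨z₂, hz₂⟩ := exists_cls (b := b) hh₁
      have h2 := hz₂.mul (show d + (k - d) = k by ring) hv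
      have h3 : z = z₁ + gc (show d + (k - d) = k by ring) z₂ (b.mult d (vK p j ^ e j)) :=
        hz.inj (hz₁.add h2)
      rw [h3, Preadditive.add_comp, (hS.ker _ _ hz₁).2 hin, zero_add, ← key, gc_F_G H]

end Vale.Agent.P221.H727
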