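import Vale.Agent.P221.H727.Ind
import Vale.Agent.P221.H727.Pi
import Vale.Agent.P221.H377.Tw
import Vale.Agent.P221.E.H509.Final

/-!
# P221 (helper727): module T, the tower of a generalised Moore spectrum

* `MulCls b φ` : the classes of the powers of `v_j` in `π_* P`;
* `all_of_stw` : the stages are dualizable, killed by a power of `p`, and
  `π_* P ⟶ π_* (P ⊗ V)` is onto;
* `piIn_of_stP` : `π_* (R ⊗ V)` lives in the degrees divisible by `2 p - 2`;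
* `exists_towData`.
-/

open CategoryTheory MonoidalCategory OnePoint Limits Pretriangulated MonObj

set_option linter.unusedSectionVars false

noncomputable section

namespace Vale.Agent.P221.H727

open Vale.Agent.P251 Vale.Agent.P251.S Vale.Agent.P251.T Vale.Agent.P251.M Vale.Agent.P251.F
  Vale.Agent.P251.I EvenSpheres Vale.Agent.P257.H702 Vale.Agent.P257.H80 Vale.Agent.P251.Q
  Vale.Agent.P251.St Vale.Agent.P251.St.SHCat Vale.Agent.P257.St Vale.Agent.P221.H746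
  Vale.Agent.P093.N0
open Vale.Agent.P221.St
open Vale.Agent.P221.T (BPS KK HK vK PiM gc gc_map gc_comp unit_hat zr IsLin fm)
open Vale.Agent.P221.H377 Vale.Agent.P221.H45

section lib

universe u

variable {𝒯 : Type u} [Category.{0} 𝒯] [Preadditive 𝒯] [HasZeroObject 𝒯]
    [HasShift 𝒯 ℤ] [∀ n : ℤ, (shiftFunctor 𝒯 n).Additive] [Pretriangulated 𝒯] [IsTriangulated 𝒯]
    [MonoidalCategory 𝒯] [SymmetricCategory 𝒯] [TensorTriangulated 𝒯] [MonoidalClosed 𝒯]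
    [HasCoproducts.{0} 𝒯] [HasProducts.{0} 𝒯] [StableCat 𝒯]

theorem dvd_sV (p : ℕ) (i : ℕ) : (2 * (p : ℤ) - 2) ∣ Vale.Agent.P221.T.sV p i := by
  have h1 : ((p : ℤ) - 1) ∣ (p : ℤ) ^ i - 1 := by
    have := sub_dvd_pow_sub_pow (p : ℤ) 1 i
    rwa [one_pow] at this
  have h2 : Vale.Agent.P221.T.sV p i = 2 * ((p : ℤ) ^ i - 1) := rfl
  rw [h2, show (2 * (p : ℤ) - 2) = 2 * ((p : ℤ) - 1) by ring]
  exact mul_dvd_mul_left 2 h1

theorem dvd_of_HK {p : ℕ} [Fact p.Prime] {k : ℤ} {f : KK p} (hf : HK p k f) (h0 : f ≠ 0) :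
    (2 * (p : ℤ) - 2) ∣ k := by
  obtain ⟨E, hE⟩ := MvPolynomial.ne_zero_iff.1 h0
  rw [← hf hE, Finsupp.weight_apply]
  refine Finset.dvd_sum fun i _ => ?_
  change _ ∣ E i • Vale.Agent.P221.T.sV p (i + 1)
  rw [nsmul_eq_mul]
  exact (dvd_sV p (i + 1)).mul_left _

/-- objects killed by a power of `p` are `p`-complete -/
theorem pComplete_of_pow {p : ℕ} {Z : 𝒯} {a : ℕ} (h : ((p : ℤ) ^ a) • 𝟙 Z = 0) :
    H395.PComplete p Z := by
  intro W hW f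
  have h1 : ∀ (m : ℕ) (f : W ⟶ Z), ∃ g : W ⟶ Z, f = ((p : ℤ) ^ m) • g := by
    intro m
    induction m with
    | zero => exact fun f => ⟨f, by rw [pow_zero, one_smul]⟩
    | succ m ih =>
      intro f
      obtain ⟨g, hg⟩ := H395.exists_div hW f
      obtain ⟨g', hg'⟩ := ih g
      exact ⟨g', by rw [hg, hg', smul_smul, pow_succ']⟩
  obtain ⟨g, rfl⟩ := h1 a f
  rw [← Category.comp_id g, ← Preadditive.comp_zsmul, h, comp_zero]

theorem pow_le_smul {p : ℕ} {Z : 𝒯} {a c : ℕ} (hac : a ≤ c) (h : ((p : ℤ) ^ a) • 𝟙 Z = 0) :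
    ((p : ℤ) ^ c) • 𝟙 Z = 0 := by
  obtain ⟨m, rfl⟩ := Nat.exists_eq_add_of_le hac
  rw [pow_add, mul_comm, mul_smul, h, smul_zero]

/-- extensions -/
theorem pow_smul_cof {p : ℕ} {A B C : 𝒯} {f : A ⟶ B} {g : B ⟶ C} {δ : C ⟶ A⟦(1 : ℤ)⟧}
    (H : Triangle.mk f g δ ∈ distTriang 𝒯) {a c : ℕ} (hA : ((p : ℤ) ^ a) • 𝟙 A = 0)
    (hB : ((p : ℤ) ^ c) • 𝟙 B = 0) : ((p : ℤ) ^ (a + c)) • 𝟙 C = 0 := by
  have h1 : (((p : ℤ) ^ a) • 𝟙 C) ≫ δ = 0 := by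
    rw [Preadditive.zsmul_comp, Category.id_comp]
    have h2 : (((p : ℤ) ^ a) • 𝟙 A)⟦(1 : ℤ)⟧' = 0 := by
      rw [hA, Functor.map_zero]
    rw [Functor.map_zsmul, CategoryTheory.Functor.map_id] at h2
    rw [← Category.comp_id δ, ← Preadditive.comp_zsmul, h2, comp_zero]
  obtain ⟨u, hu⟩ := dist_co₃ H (((p : ℤ) ^ a) • 𝟙 C) h1
  rw [pow_add, mul_comm, mul_smul, hu, ← Preadditive.zsmul_comp]
  have h3 : ((p : ℤ) ^ c) • u = 0 := by
    rw [← Category.comp_id u, ← Preadditive.comp_zsmul, hB, comp_zero]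
  rw [h3, zero_comp]

theorem zsmul_shift {p : ℕ} {A : 𝒯} {a : ℕ} (hA : ((p : ℤ) ^ a) • 𝟙 A = 0) (d : ℤ) :
    ((p : ℤ) ^ a) • 𝟙 (A⟦d⟧) = 0 := by
  have h2 : (((p : ℤ) ^ a) • 𝟙 A)⟦d⟧' = 0 := by
    rw [hA, Functor.map_zero]
  rwa [Functor.map_zsmul, CategoryTheory.Functor.map_id] at h2

theorem zsmul_tensor {p : ℕ} (X : 𝒯) {A : 𝒯} {a : ℕ} (hA : ((p : ℤ) ^ a) • 𝟙 A = 0) :
    ((p : ℤ) ^ a) • 𝟙 (X ⊗ A) = 0 := by
  have h5 := map_zsmul ((tensorLeft X).mapAddHom (X := A) (Y := A)) ((p : ℤ) ^ a) (𝟙 _)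
  change X ◁ (((p : ℤ) ^ a) • 𝟙 A) = ((p : ℤ) ^ a) • (X ◁ 𝟙 A) at h5
  rw [hA, MonoidalCategory.whiskerLeft_id] at h5
  rw [← h5]
  exact (tensorLeft X).map_zero _ _

theorem zsmul_iso {p : ℕ} {A B : 𝒯} (e : A ≅ B) {a : ℕ} (hA : ((p : ℤ) ^ a) • 𝟙 A = 0) :
    ((p : ℤ) ^ a) • 𝟙 B = 0 := by
  rw [← e.inv_hom_id, ← Category.id_comp e.hom, ← Preadditive.comp_zsmul,
    ← Preadditive.zsmul_comp, hA, zero_comp, comp_zero]

variable {p : ℕ} [hp : Fact p.Prime] {R P W : 𝒯} [MonObj R] [IsCommMonObj R] (b : BPS p R P W)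

/-- `R ⊗ V ⟶ P ⊗ V` is a monomorphism if `V` is killed by a power of `p` -/
theorem c_mono {V : 𝒯} {a : ℕ} (hV : ((p : ℤ) ^ a) • 𝟙 V = 0) {A : 𝒯} (y : A ⟶ R ⊗ V)
    (hy : y ≫ b.c ▷ V = 0) : y = 0 := by
  have h1 : H395.PComplete p (V ⊗ R) :=
    pComplete_of_pow (a := a) (zsmul_iso (β_ R V) (zsmul_tensor R hV))
  obtain ⟨g, hg⟩ := (b.c_bij V (V ⊗ R) h1 0).2 ((shiftFunctorZero 𝒯 ℤ).hom.app (V ⊗ R))
  dsimp only at hg
  have h2 : V ◁ b.c ≫ (shiftFunctorZero 𝒯 ℤ).inv.app (V ⊗ P) ≫ g = 𝟙 _ := by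
    have h3 : V ◁ b.c ≫ (shiftFunctorZero 𝒯 ℤ).inv.app (V ⊗ P) =
        (shiftFunctorZero 𝒯 ℤ).inv.app (V ⊗ R) ≫ (V ◁ b.c)⟦(0 : ℤ)⟧' :=
      (shiftFunctorZero 𝒯 ℤ).inv.naturality (V ◁ b.c)
    rw [reassoc_of% h3, hg]
    exact Iso.inv_hom_id_app _ _
  have h4 : (y ≫ (β_ R V).hom) ≫ V ◁ b.c = 0 := by
    rw [Category.assoc, ← BraidedCategory.braiding_naturality_left, ← Category.assoc, hy,
      zero_comp]
  have h5 : y ≫ (β_ R V).hom = 0 := by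
    rw [← Category.comp_id (y ≫ (β_ R V).hom), ← h2, ← Category.assoc, h4, zero_comp]
  rw [← cancel_mono (β_ R V).hom, h5, zero_comp]

/-- `π_* (R ⊗ V)` lives in the degrees divisible by `2 p - 2` -/
theorem piIn_of_stP {e : ℕ → ℕ} {j : ℕ} {V : 𝒯} {io : 𝟙_ 𝒯 ⟶ V} (hS : StP b e j io) {a : ℕ}
    (hV : ((p : ℤ) ^ a) • 𝟙 V = 0) : PiIn (fun k => (2 * (p : ℤ) - 2) ∣ k) (R ⊗ V) := by
  intro k hk y
  refine c_mono b hV y ?_
  obtain ⟨z, hz⟩ := hS.sur (y ≫ b.c ▷ V)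
  obtain ⟨f, hf⟩ := exists_rep (b := b) z
  by_cases h0 : f = 0
  · subst h0
    rw [← hz, hf.eq_zero, zero_comp]
  · exact absurd (dvd_of_HK hf.1 h0) hk

theorem StP.congr {b : BPS p R P W} {e e' : ℕ → ℕ} {j : ℕ} (hj : 1 ≤ j) {V : 𝒯} {io : 𝟙_ 𝒯 ⟶ V}
    (hS : StP b e j io) (h : ∀ l < j, e l = e' l) : StP b e' j io :=
  ⟨hS.sur, fun z f hz => (hS.ker z f hz).trans
    ⟨fun h1 => h1.congr hj h, fun h1 => h1.congr hj fun l hl => (h l hl).symm⟩⟩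

/-- data of a step -/
structure SD (R V V' : 𝒯) where
  d : ℤ
  w : (𝟙_ 𝒯)⟦d⟧ ⟶ R
  f : V⟦d⟧ ⟶ V
  g : V ⟶ V'

/-- the properties of a step -/
def SD.Ok {V V' : 𝒯} (q : ℤ) (s : SD R V V') : Prop :=
  (∀ Z : 𝒯, ∃ δ, Triangle.mk (onL Z s.f) (Z ◁ s.g) δ ∈ distTriang 𝒯) ∧ Induces s.w s.f ∧
    q ∣ s.d ∧ 0 < s.d ∧ SignProp 𝒯 s.d 1

end lib

variable {T : SHCat} {S : Susp T} {p : ℕ} [hp : Fact p.Prime] {R : RingSp T} {φ : GHom S p R}

/-- the classes of the powers of `v_j` -/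
def MulCls {Pc W₀ : T.C} (b : BPS p R.obj Pc W₀) (φ : GHom S p R) : Prop :=
  ∀ (k j i : ℕ) (w : VPoly p k), (w : MvPolynomial ℕ ℤ) = vEl p j ^ i →
    wcl (φ.val w) ≫ b.c = b.cls (2 * (k : ℤ)) (vK p j ^ i)

theorem exists_mulCls {o : Oriented S R} (h : IsBrownPeterson p o φ) :
    ∃ (Pc W₀ : T.C) (b : BPS p R.obj Pc W₀), MulCls b φ := by
  obtain ⟨D, hD, hA, ⟨U⟩⟩ := H924.exists_mu S.toSpaceFunctor (P251.M.lineIso S.toSpaceFunctor)
  obtain ⟨b₀, _, κ, Φ, hκ, hφ, hΦ⟩ := P221.H509.exists_bpOut' hD hA U h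
  obtain ⟨Pc, W, b, hv⟩ := Vale.Agent.P221.T.H598.exists_BPS hD hA hκ.mon hΦ
  refine ⟨Pc, W, b, fun k j i w hw => ?_⟩
  have h1 : MvPolynomial.map (Int.castRingHom ℤ_[p]) (w : MvPolynomial ℕ ℤ) = vK p j ^ i := by
    rw [hw, map_pow, map_vEl]
  have hf : HK p (2 * (k : ℤ)) (vK p j ^ i) := by
    have h2 := (show MvPolynomial.IsWeightedHomogeneous (fun i => Vale.Agent.P221.T.sV p (i + 1))
      (vK p j) (Vale.Agent.P221.T.sV p j) from Vale.Agent.P221.T.H609.HK_vK j).pow i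
    have h3 : i • Vale.Agent.P221.T.sV p j = 2 * (k : ℤ) := by
      rw [degree_sV w hw, nsmul_eq_mul]
    rw [h3] at h2
    exact h2
  rw [← h1]
  exact (cls_eq b hκ.mon hΦ hv hφ w (by rw [h1]; exact hf)).symm

/-- **the stages** -/
theorem all_of_stw {Pc W₀ : T.C} {b : BPS p R.obj Pc W₀} (hcls : MulCls b φ)
    {E : ℕ → T.C → Prop} {j : ℕ} {V : T.C} (hV : STw φ E j V) :
    1 ≤ j ∧ Vale.Agent.P093.N2.Dz V ∧ (∃ a : ℕ, ((p : ℤ) ^ a) • 𝟙 V = 0) ∧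
      ∃ (io : 𝟙_ T.C ⟶ V) (e : ℕ → ℕ), StP b e j io := by
  induction hV with
  | @base i V g h hE hi hT =>
    refine ⟨le_rfl, ?_, ?_, g, fun _ => i, ?_⟩
    · exact Vale.Agent.P093.N2.Dz.ext (rot_of_distTriang _ hT) Vale.Agent.P093.N2.Dz.unit
        (Vale.Agent.P093.N2.Dz.unit.shift 1)
    · refine ⟨i + i, ?_⟩
      have h1 : (((p : ℤ) ^ i) • 𝟙 V) ≫ h = 0 := by
        have h2 : h ≫ (((p : ℤ) ^ i) • 𝟙 (𝟙_ T.C))⟦(1 : ℤ)⟧' = 0 := dist_zero₃₁ hT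
        rw [Functor.map_zsmul, CategoryTheory.Functor.map_id, Preadditive.comp_zsmul,
          Category.comp_id] at h2
        rw [Preadditive.zsmul_comp, Category.id_comp, h2]
      obtain ⟨u, hu⟩ := dist_co₃ hT (((p : ℤ) ^ i) • 𝟙 V) h1
      have h3 : ((p : ℤ) ^ i) • g = 0 := by
        have h4 : (((p : ℤ) ^ i) • 𝟙 (𝟙_ T.C)) ≫ g = 0 := dist_zero₁₂ hT
        rwa [Preadditive.zsmul_comp, Category.id_comp] at h4
      rw [pow_add, mul_smul, hu, ← Preadditive.comp_zsmul, h3, comp_zero]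
    · obtain ⟨δ, hδ⟩ := base_tri hT Pc
      exact StP.base hδ fun h z => gc_pw h z
  | @step j k i V W f g h w hV hE hi hw hf hT ih =>
    obtain ⟨hj, hdz, ⟨a, ha⟩, io, e, hS⟩ := ih
    obtain ⟨h', hT'⟩ := H395.Fp.selfMap_dist hT
    have ec : V ⊗ (stdEven T.C).S k ≅ V⟦(2 * (k : ℤ) : ℤ)⟧ :=
      ((stdEven T.C).shiftNat (Iso.refl _) k).app V
    refine ⟨by omega, ?_, ⟨a + a, ?_⟩, io ≫ g, Function.update e j i, ?_⟩
    · exact Vale.Agent.P093.N2.Dz.ext (rot_of_distTriang _ hT') hdz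
        (((hdz.shift (2 * (k : ℤ))).of_iso ec.symm).shift 1)
    · exact pow_smul_cof hT' (zsmul_iso ec.symm (zsmul_shift ha _)) ha
    · obtain ⟨δ, hδ⟩ := self_tri hT Pc
      have hS' : StP b (Function.update e j i) j io :=
        hS.congr hj fun l hl => (Function.update_of_ne (by omega) _ _).symm
      have hei : Function.update e j i j = i := Function.update_self _ _ _
      refine hS'.step hj (by rw [hei]; exact degree_sV w hw) hδ ?_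
      rw [hei]
      have hPV : H395.PComplete p (Pc ⊗ V) := pComplete_of_pow (zsmul_tensor Pc ha)
      refine inc_mult b hPV io (induces_unit hf io) ?_ ?_
      · refine b.isLin_of_c b.cP ?_
        rw [Vale.Agent.P221.T.H598.c_mult]
        exact Vale.Agent.P221.T.hat_isLin _ _
      · rw [Functor.map_comp, Category.assoc, Vale.Agent.P221.T.H598.c_mult, unit_hat]
        exact (hcls k j i w hw).symm

/-- **the sequence of the stages** -/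
theorem exists_seq {E : ℕ → T.C → Prop} {j : ℕ} {V : T.C} (hV : STw φ E j V) :
    ∃ Vs : ℕ → T.C, Vs j = V ∧ 1 ≤ j ∧
      (∃ (i : ℕ) (g : Hom T.one (Vs 1)) (h : Hom (Vs 1) (sus T.one)), 0 < i ∧
        Dist (zmul ((p : ℤ) ^ i) (ident T.one)) g h) ∧ E 0 T.one ∧
      ∀ l, 1 ≤ l → l < j → STw φ E l (Vs l) ∧ E l (Vs l) ∧
        ∃ (k i : ℕ) (f : Hom (ten (S.obj (Cn k)) (Vs l)) (Vs l)) (g : Hom (Vs l) (Vs (l + 1)))
          (h : Hom (Vs (l + 1)) (sus (ten (S.obj (Cn k)) (Vs l)))) (w : VPoly p k), 0 < i ∧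
          (w : MvPolynomial ℕ ℤ) = vEl p l ^ i ∧ InducesMul (φ.val w) f ∧ Dist f g h := by
  induction hV with
  | @base i V g h hE hi hT =>
    exact ⟨fun _ => V, rfl, le_rfl, ⟨i, g, h, hi, hT⟩, hE, fun l h1 h2 => absurd h1 (by omega)⟩
  | @step j k i V W f g h w hV hE hi hw hf hT ih =>
    obtain ⟨Vs, rfl, hj, hbase, hE0, hst⟩ := ih
    have hne : ∀ l, l ≤ j → Function.update Vs (j + 1) W l = Vs l := fun l hl =>
      Function.update_of_ne (by omega) _ _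
    have hself : Function.update Vs (j + 1) W (j + 1) = W := Function.update_self _ _ _
    refine ⟨Function.update Vs (j + 1) W, hself, by omega, ?_, hE0, fun l h1 h2 => ?_⟩
    · rw [hne 1 hj]
      exact hbase
    · by_cases hlj : l = j
      · subst hlj
        rw [hne l le_rfl, hself]
        exact ⟨hV, hE, k, i, f, g, h, w, hi, hw, hf, hT⟩
      · rw [hne l (by omega), hne (l + 1) (by omega)]
        exact hst l h1 (by omega)

/-- **module T** -/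
theorem exists_towData' {o : Oriented S R} (h : IsBrownPeterson p o φ) {E : ℕ → T.C → Prop}
    {n : ℕ} {V : T.C} (hV : STw φ E (n + 1) V) :
    ∃ D : TowData R.obj p (2 * (p : ℤ) - 2) n, 0 < D.e ∧ D.V (n + 1) = V ∧
      ∀ j, 1 ≤ j → j ≤ n → STw φ E j (D.V j) ∧ E j (D.V j) := by
  obtain ⟨Pc, W₀, b, hcls⟩ := exists_mulCls h
  obtain ⟨Vs, hVs, -, ⟨i, g, h0, hi, hT⟩, -, hst⟩ := exists_seq hV
  have hstw : ∀ l, 1 ≤ l → l ≤ n + 1 → STw φ E l (Vs l) := by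
    intro l h1 h2
    rcases h2.lt_or_eq with h3 | rfl
    · exact (hst l h1 h3).1
    · rw [hVs]
      exact hV
  have hall := fun l h1 h2 => all_of_stw hcls (hstw l h1 h2)
  have hex : ∀ l, ∃ s : SD R.obj (Vs l) (Vs (l + 1)), 1 ≤ l → l ≤ n →
      s.Ok (2 * (p : ℤ) - 2) := by
    intro l
    by_cases hl : 1 ≤ l ∧ l ≤ n
    · obtain ⟨-, -, k, i, f, g, h, w, hi, hw, hf, hT⟩ := hst l hl.1 (by omega)
      refine ⟨⟨2 * (k : ℤ), wcl (φ.val w), fV f, g⟩, fun _ _ => ⟨fun Z => self_tri hT Z,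
        induces_of hf, ?_, ?_, signProp_two_mul (T := T.C) k⟩⟩
      · change _ ∣ 2 * (k : ℤ)
        rw [degree_sV w hw]
        exact (dvd_sV p l).mul_left _
      · change 0 < 2 * (k : ℤ)
        have hk := H395.Fp.degree_eq hp.out w hw
        have hpj : 1 < p ^ l := Nat.one_lt_pow (by omega) hp.out.one_lt
        have h1 : 0 < k := by
          rw [hk]
          exact Nat.mul_pos hi (by omega)
        omega
    · exact ⟨⟨0, 0, 0, 0⟩, fun h1 h2 => absurd ⟨h1, h2⟩ hl⟩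
  choose s hs using hex
  have het : ∃ et : ℕ, ∀ l, 1 ≤ l → l ≤ n + 1 → ((p : ℤ) ^ et) • 𝟙 (Vs l) = 0 := by
    have h1 : ∀ l, ∃ a : ℕ, 1 ≤ l → l ≤ n + 1 → ((p : ℤ) ^ a) • 𝟙 (Vs l) = 0 := by
      intro l
      by_cases hl : 1 ≤ l ∧ l ≤ n + 1
      · obtain ⟨a, ha⟩ := (hall l hl.1 hl.2).2.2.1
        exact ⟨a, fun _ _ => ha⟩
      · exact ⟨0, fun h1 h2 => absurd ⟨h1, h2⟩ hl⟩
    choose a ha using h1
    refine ⟨∑ l ∈ Finset.range (n + 2), a l, fun l h1 h2 => pow_le_smul ?_ (ha l h1 h2)⟩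
    exact Finset.single_le_sum (f := a) (fun _ _ => Nat.zero_le _)
      (Finset.mem_range.2 (by omega))
  obtain ⟨et, het⟩ := het
  refine ⟨
    { V := Vs
      d := fun l => (s l).d
      w := fun l => (s l).w
      f := fun l => (s l).f
      g := fun l => (s l).g
      e := i
      et := et
      tri := fun j h1 h2 => (hs j h1 h2).1
      ind := fun j h1 h2 => (hs j h1 h2).2.1
      deg := fun j h1 h2 => (hs j h1 h2).2.2
      dz := fun j h1 h2 => (hall j h1 h2).2.1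
      tor := het
      cls := fun j h1 h2 => by
        obtain ⟨-, -, ⟨a, ha⟩, io, e, hS⟩ := hall j h1 (by omega)
        exact piIn_of_stP b hS ha
      base := fun Z => by
        obtain ⟨δ, hδ⟩ := base_tri hT Z
        have h5 := dist_iso₁ hδ ((shiftFunctorZero T.C ℤ).app Z).symm
        have h6 : ((shiftFunctorZero T.C ℤ).app Z).symm.hom ≫ pw Z ((p : ℤ) ^ i) =
            ((p : ℤ) ^ i) • 𝟙 Z := by
          change (shiftFunctorZero T.C ℤ).inv.app Z ≫ (shiftFunctorZero T.C ℤ).hom.app Z ≫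
            (((p : ℤ) ^ i) • 𝟙 Z) = _
          rw [Iso.inv_hom_id_app_assoc]
        rw [h6] at h5
        exact ⟨_, _, h5⟩ }, hi, hVs, fun j h1 h2 =>
          ⟨(hst j h1 (by omega)).1, (hst j h1 (by omega)).2.1⟩⟩

/-- **module T** -/
theorem exists_towData {o : Oriented S R} (h : IsBrownPeterson p o φ) {E : ℕ → T.C → Prop}
    {n : ℕ} {V : T.C} (hV : STw φ E (n + 1) V) :
    ∃ D : TowData R.obj p (2 * (p : ℤ) - 2) n, D.V (n + 1) = V ∧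
      ∀ j, 1 ≤ j → j ≤ n → STw φ E j (D.V j) ∧ E j (D.V j) := by
  obtain ⟨D, -, hD⟩ := exists_towData' h hV
  exact ⟨D, hD⟩

end Vale.Agent.P221.H727
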